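import Vale.Agent.P144Z.Cl

/-!
# Rooted and connected families
-/

namespace Vale.Agent.P144Z

open Finset

namespace B2

variable {ι : Type}

/-- `k` can be reached from `s` inside the family. -/
def Reach (t : ι → ι → Prop) (𝒳 : Finset ι) (s k : ι) : Prop :=
  Relation.ReflTransGen (fun U W => W ∈ 𝒳 ∧ t U W) s k

/-- Every member of the family can be reached from a member that is a root. -/
def Rooted (t : ι → ι → Prop) (S : ι → Prop) (𝒳 : Finset ι) : Prop :=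
  ∀ k ∈ 𝒳, ∃ s ∈ 𝒳, S s ∧ Reach t 𝒳 s k

variable {t : ι → ι → Prop} {S : ι → Prop}

theorem Reach.mono {𝒳 𝒴 : Finset ι} (h : 𝒳 ⊆ 𝒴) {s k : ι} (hr : Reach t 𝒳 s k) :
    Reach t 𝒴 s k := by
  induction hr with
  | refl => exact Relation.ReflTransGen.refl
  | tail _ h2 ih => exact Relation.ReflTransGen.tail ih ⟨h h2.1, h2.2⟩

theorem Reach.symm (hs : ∀ {i j}, t i j → t j i) {𝒳 : Finset ι} {s k : ι} (hs0 : s ∈ 𝒳)
    (hr : Reach t 𝒳 s k) : k ∈ 𝒳 ∧ Reach t 𝒳 k s := by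
  induction hr with
  | refl => exact ⟨hs0, Relation.ReflTransGen.refl⟩
  | tail _ h2 ih => exact ⟨h2.1, Relation.ReflTransGen.head ⟨ih.1, hs h2.2⟩ ih.2⟩

theorem rooted_empty : Rooted t S ∅ := fun _ hk => absurd hk (notMem_empty _)

theorem Rooted.famConn (hs : ∀ {i j}, t i j → t j i) (hS : ∀ i j, S i → S j → t i j)
    {𝒳 : Finset ι} (h : Rooted t S 𝒳) : FamConn t 𝒳 := by
  intro X hX Y hY
  obtain ⟨s, hs1, hs2, hs3⟩ := h X hX
  obtain ⟨s', hs1', hs2', hs3'⟩ := h Y hY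
  exact (hs3.symm hs hs1).2.trans (Relation.ReflTransGen.head ⟨hs1', hS _ _ hs2 hs2'⟩ hs3')

theorem rooted_of_famConn {𝒳 : Finset ι} (h : FamConn t 𝒳) {s : ι} (hs : s ∈ 𝒳) (hS : S s) :
    Rooted t S 𝒳 := fun k hk => ⟨s, hs, hS, h s hs k hk⟩

theorem Rooted.last {𝒳 : Finset ι} (h : Rooted t S 𝒳) {k : ι} (hk : k ∈ 𝒳)
    (hs : ∀ {i j}, t i j → t j i) : S k ∨ ∃ U ∈ 𝒳, t U k := by
  obtain ⟨s, hs1, hs2, hs3⟩ := h k hk
  rcases Relation.ReflTransGen.cases_tail hs3 with rfl | ⟨c, hc1, hc2⟩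
  · exact Or.inl hs2
  · exact Or.inr ⟨c, (Reach.symm hs hs1 hc1).1, hc2.2⟩

theorem cut_of_famConn {𝒳 : Finset ι} (h : FamConn t 𝒳) :
    ∀ D ⊆ 𝒳, D.Nonempty → D ≠ 𝒳 → ∃ u ∈ D, ∃ v ∈ 𝒳, v ∉ D ∧ t u v := by
  intro D hD ⟨u, hu⟩ hne
  by_contra hcon
  push Not at hcon
  refine hne (Subset.antisymm hD fun v hv => ?_)
  have h1 := h u (hD hu) v hv
  clear hv
  induction h1 with
  | refl => exact hu
  | tail _ h2 ih =>
    by_contra h3
    exact hcon _ ih _ h2.1 h3 h2.2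

variable [DecidableEq ι]

theorem Rooted.erase (hs : ∀ {i j}, t i j → t j i) {𝒳 : Finset ι} (h : Rooted t S 𝒳) (j : ι) :
    Rooted t (fun s => (S s ∧ s ≠ j) ∨ t s j) (𝒳.erase j) := by
  intro k hk
  obtain ⟨s, hs1, hs2, hs3⟩ := h k (mem_of_mem_erase hk)
  have key : k = j ∨ ∃ s ∈ 𝒳.erase j, ((S s ∧ s ≠ j) ∨ t s j) ∧ Reach t (𝒳.erase j) s k := by
    clear hk
    induction hs3 with
    | refl =>
      by_cases h1 : s = j
      · exact Or.inl h1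
      · exact Or.inr ⟨s, mem_erase.2 ⟨h1, hs1⟩, Or.inl ⟨hs2, h1⟩, Relation.ReflTransGen.refl⟩
    | @tail b c _ h2 ih =>
      by_cases h1 : c = j
      · exact Or.inl h1
      · have hc : c ∈ 𝒳.erase j := mem_erase.2 ⟨h1, h2.1⟩
        rcases ih with rfl | ⟨s', h3, h4, h5⟩
        · exact Or.inr ⟨c, hc, Or.inr (hs h2.2), Relation.ReflTransGen.refl⟩
        · exact Or.inr ⟨s', h3, h4, Relation.ReflTransGen.tail h5 ⟨hc, h2.2⟩⟩
  exact key.resolve_left (mem_erase.1 hk).1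

open Classical in
/-- The sum over the rooted subfamilies of `L`. -/
noncomputable def G (t : ι → ι → Prop) (w : ι → ℝ) (S : ι → Prop) (L : Finset ι) : ℝ :=
  ∑ 𝒳 ∈ L.powerset.filter (Rooted t S), ∏ k ∈ 𝒳, w k

open Classical in
theorem sum_mem_le (hs : ∀ {i j}, t i j → t j i) {w : ι → ℝ} (hw : ∀ i, 0 ≤ w i) (j : ι)
    (L : Finset ι) (T : Finset (Finset ι)) (hT : ∀ 𝒳 ∈ T, 𝒳 ⊆ L ∧ j ∈ 𝒳 ∧ Rooted t S 𝒳) :
    ∑ 𝒳 ∈ T, ∏ k ∈ 𝒳, w k ≤ w j * G t w (fun s => (S s ∧ s ≠ j) ∨ t s j) (L.erase j) := by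
  have h1 : ∑ 𝒳 ∈ T, ∏ k ∈ 𝒳, w k = ∑ 𝒴 ∈ T.image (fun 𝒳 => 𝒳.erase j), w j * ∏ k ∈ 𝒴, w k := by
    rw [sum_image]
    · exact sum_congr rfl fun 𝒳 h𝒳 => (mul_prod_erase 𝒳 w (hT 𝒳 h𝒳).2.1).symm
    · intro 𝒳 h𝒳 𝒳' h𝒳' h
      rw [← insert_erase (hT 𝒳 h𝒳).2.1, ← insert_erase (hT 𝒳' h𝒳').2.1]
      exact congrArg (insert j) h
  rw [h1, G, mul_sum]
  refine sum_le_sum_of_subset_of_nonneg (fun 𝒴 h𝒴 => ?_) fun 𝒴 _ _ =>
    mul_nonneg (hw j) (prod_nonneg fun k _ => hw k)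
  obtain ⟨𝒳, h𝒳, rfl⟩ := mem_image.1 h𝒴
  exact mem_filter.2 ⟨mem_powerset.2 (erase_subset_erase j (hT 𝒳 h𝒳).1),
    (hT 𝒳 h𝒳).2.2.erase hs j⟩

open Classical in
theorem G_le [Fintype ι] (hs : ∀ {i j}, t i j → t j i) {w a : ι → ℝ} (hw : ∀ i, 0 ≤ w i)
    (h : ∀ i, ∑ j ∈ univ.filter (fun j => t j i), w j * Real.exp (a j) ≤ a i) (L : Finset ι) :
    ∀ (S : ι → Prop) (T : Finset ι), (∀ k, S k → k ∈ T) →
      G t w S L ≤ Real.exp (∑ j ∈ T, w j * Real.exp (a j)) := by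
  have hn : ∀ j, 0 ≤ w j * Real.exp (a j) := fun j => mul_nonneg (hw j) (Real.exp_pos _).le
  induction L using Finset.strongInduction with
  | H L ih =>
    intro S T hT
    by_cases hL : ∃ j ∈ L, S j
    · obtain ⟨j, hj, hSj⟩ := hL
      set B : ℝ := ∑ k ∈ T.erase j, w k * Real.exp (a k) with hB
      have h1 : ∑ k ∈ T, w k * Real.exp (a k) = w j * Real.exp (a j) + B :=
        (add_sum_erase _ (fun k => w k * Real.exp (a k)) (hT j hSj)).symm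
      have h2 := ih (L.erase j) (erase_ssubset hj) (fun s => S s ∧ s ≠ j) (T.erase j)
        fun k hk => mem_erase.2 ⟨hk.2, hT k hk.1⟩
      have h3 := ih (L.erase j) (erase_ssubset hj) (fun s => (S s ∧ s ≠ j) ∨ t s j)
        (T.erase j ∪ univ.filter fun s => t s j) fun k hk => mem_union.2
          (hk.imp (fun h => mem_erase.2 ⟨h.2, hT k h.1⟩) fun h => mem_filter.2 ⟨mem_univ _, h⟩)
      have h4 : ∑ k ∈ T.erase j ∪ univ.filter (fun s => t s j), w k * Real.exp (a k)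
          ≤ B + a j := by
        have h5 := sum_union_inter (s₁ := T.erase j)
          (s₂ := univ.filter fun s => t s j) (f := fun k => w k * Real.exp (a k))
        have h6 : 0 ≤ ∑ k ∈ T.erase j ∩ (univ.filter fun s => t s j),
            w k * Real.exp (a k) := sum_nonneg fun k _ => hn k
        linarith only [h5, h6, h j, hB]
      have h5 := sum_mem_le (t := t) (S := S) hs hw j L
        ((L.powerset.filter (Rooted t S)).filter fun 𝒳 => j ∈ 𝒳) fun 𝒳 h𝒳 => by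
          rw [mem_filter, mem_filter, mem_powerset] at h𝒳
          exact ⟨h𝒳.1.1, h𝒳.2, h𝒳.1.2⟩
      have h6 : ∑ 𝒳 ∈ (L.powerset.filter (Rooted t S)).filter (fun 𝒳 => ¬ j ∈ 𝒳), ∏ k ∈ 𝒳, w k
          ≤ G t w (fun s => S s ∧ s ≠ j) (L.erase j) := by
        rw [G]
        refine sum_le_sum_of_subset_of_nonneg (fun 𝒳 h𝒳 => ?_) fun 𝒴 _ _ =>
          prod_nonneg fun k _ => hw k
        rw [mem_filter, mem_filter, mem_powerset] at h𝒳
        refine mem_filter.2 ⟨mem_powerset.2 (subset_erase.2 ⟨h𝒳.1.1, h𝒳.2⟩), fun k hk => ?_⟩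
        obtain ⟨s, hs1, hs2, hs3⟩ := h𝒳.1.2 k hk
        exact ⟨s, hs1, ⟨hs2, fun h7 => h𝒳.2 (h7 ▸ hs1)⟩, hs3⟩
      have h7 : w j * G t w (fun s => (S s ∧ s ≠ j) ∨ t s j) (L.erase j)
          ≤ w j * Real.exp (a j) * Real.exp B := by
        rw [mul_assoc, ← Real.exp_add, add_comm]
        exact mul_le_mul_of_nonneg_left (h3.trans (Real.exp_le_exp.2 h4)) (hw j)
      have h8 := mul_le_mul_of_nonneg_right (Real.add_one_le_exp (w j * Real.exp (a j)))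
        (Real.exp_pos B).le
      rw [G, ← sum_filter_add_sum_filter_not _ (fun 𝒳 => j ∈ 𝒳), h1, Real.exp_add]
      linarith only [h2, h5, h6, h7, h8]
    · have h1 : L.powerset.filter (Rooted t S) = {∅} := by
        ext 𝒳
        rw [mem_filter, mem_powerset, mem_singleton]
        constructor
        · rintro ⟨h2, h3⟩
          refine eq_empty_of_forall_notMem fun k hk => ?_
          obtain ⟨s, hs1, hs2, -⟩ := h3 k hk
          exact hL ⟨s, h2 hs1, hs2⟩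
        · rintro rfl
          exact ⟨empty_subset _, rooted_empty⟩
      rw [G, h1, sum_singleton, prod_empty]
      exact Real.one_le_exp (sum_nonneg fun k _ => hn k)

open Classical in
/-- The part of a family that is reached from the roots. -/
noncomputable def comp (t : ι → ι → Prop) (S : ι → Prop) (𝒳 : Finset ι) : Finset ι :=
  𝒳.filter fun k => ∃ s ∈ 𝒳, S s ∧ Reach t 𝒳 s k

omit [DecidableEq ι] in
theorem mem_comp {𝒳 : Finset ι} {k : ι} :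
    k ∈ comp t S 𝒳 ↔ k ∈ 𝒳 ∧ ∃ s ∈ 𝒳, S s ∧ Reach t 𝒳 s k := by
  classical
  rw [comp, mem_filter]

omit [DecidableEq ι] in
theorem rooted_comp (𝒳 : Finset ι) : Rooted t S (comp t S 𝒳) := by
  intro k hk
  obtain ⟨-, s, hs1, hs2, hs3⟩ := mem_comp.1 hk
  refine ⟨s, mem_comp.2 ⟨hs1, s, hs1, hs2, Relation.ReflTransGen.refl⟩, hs2, ?_⟩
  clear hk
  induction hs3 with
  | refl => exact Relation.ReflTransGen.refl
  | tail h1 h2 ih =>
    exact Relation.ReflTransGen.tail ih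
      ⟨mem_comp.2 ⟨h2.1, s, hs1, hs2, Relation.ReflTransGen.tail h1 h2⟩, h2.2⟩

theorem comp_union {C D : Finset ι} (hC : Rooted t S C)
    (hD : ∀ W ∈ D, ¬ S W ∧ ∀ U ∈ C, ¬ t U W) : comp t S (C ∪ D) = C := by
  ext k
  rw [mem_comp]
  constructor
  · rintro ⟨-, s, hs1, hs2, hs3⟩
    induction hs3 with
    | refl => exact (mem_union.1 hs1).resolve_right fun h => (hD s h).1 hs2
    | tail _ h2 ih => exact (mem_union.1 h2.1).resolve_right fun h => (hD _ h).2 _ ih h2.2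
  · intro hk
    obtain ⟨s, hs1, hs2, hs3⟩ := hC k hk
    exact ⟨mem_union_left _ hk, s, mem_union_left _ hs1, hs2, hs3.mono subset_union_left⟩

open Classical in
/-- Every family splits into the part reached from the roots and the rest. -/
theorem sum_split {M : Type*} [CommSemiring M] (hs : ∀ {i j}, t i j → t j i) (S : ι → Prop)
    (L : Finset ι) (f : ι → M) :
    ∑ 𝒳 ∈ L.powerset, ∏ k ∈ 𝒳, f k = ∑ C ∈ L.powerset.filter (Rooted t S), (∏ k ∈ C, f k) *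
      ∑ D ∈ (L.filter fun W => ¬ S W ∧ ∀ U ∈ C, ¬ t U W).powerset, ∏ k ∈ D, f k := by
  have hdis : ∀ C D : Finset ι, Rooted t S C → (∀ W ∈ D, ¬ S W ∧ ∀ U ∈ C, ¬ t U W) →
      Disjoint C D := fun C D hC hD => disjoint_left.2 fun k hk hk' => by
    rcases hC.last hk hs with h | ⟨U, hU, h⟩
    · exact (hD k hk').1 h
    · exact (hD k hk').2 U hU h
  simp_rw [mul_sum]
  rw [sum_sigma']
  refine sum_nbij' (fun 𝒳 => ⟨comp t S 𝒳, 𝒳 \ comp t S 𝒳⟩) (fun x => x.1 ∪ x.2) ?_ ?_ ?_ ?_ ?_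
  · intro 𝒳 h𝒳
    have h1 := mem_powerset.1 h𝒳
    refine mem_sigma.2 ⟨mem_filter.2 ⟨mem_powerset.2 fun k hk => h1 (mem_comp.1 hk).1,
      rooted_comp 𝒳⟩, mem_powerset.2 fun W hW => ?_⟩
    obtain ⟨h2, h3⟩ := mem_sdiff.1 hW
    refine mem_filter.2 ⟨h1 h2, fun h => h3 (mem_comp.2 ⟨h2, W, h2, h, Relation.ReflTransGen.refl⟩),
      fun U hU h => ?_⟩
    obtain ⟨-, s, hs1, hs2, hs3⟩ := mem_comp.1 hU
    exact h3 (mem_comp.2 ⟨h2, s, hs1, hs2, Relation.ReflTransGen.tail hs3 ⟨h2, h⟩⟩)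
  · rintro ⟨C, D⟩ hx
    obtain ⟨h1, h2⟩ := mem_sigma.1 hx
    exact mem_powerset.2 (union_subset (mem_powerset.1 (mem_filter.1 h1).1)
      ((mem_powerset.1 h2).trans (filter_subset _ _)))
  · intro 𝒳 _
    exact union_sdiff_of_subset fun k hk => (mem_comp.1 hk).1
  · rintro ⟨C, D⟩ hx
    obtain ⟨h1, h2⟩ := mem_sigma.1 hx
    have h3 : ∀ W ∈ D, ¬ S W ∧ ∀ U ∈ C, ¬ t U W := fun W hW =>
      (mem_filter.1 (mem_powerset.1 h2 hW)).2
    have h4 := comp_union (mem_filter.1 h1).2 h3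
    simp only [h4, union_sdiff_cancel_left (hdis C D (mem_filter.1 h1).2 h3)]
  · intro 𝒳 _
    rw [mul_comm, prod_sdiff fun k hk => (mem_comp.1 hk).1]

end B2

open Classical in
/-- B2: sums over connected families. -/
theorem conn_sum {ι : Type} [Fintype ι] [DecidableEq ι] (t : ι → ι → Prop)
    (hs : ∀ {i j}, t i j → t j i) (w a : ι → ℝ) (hw : ∀ i, 0 ≤ w i)
    (h : ∀ i, ∑ j ∈ univ.filter (fun j => t j i), w j * Real.exp (a j) ≤ a i) (i : ι) :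
    ∑ 𝒳 ∈ univ.filter (fun 𝒳 : Finset ι => i ∈ 𝒳 ∧ FamConn t 𝒳), ∏ k ∈ 𝒳, w k
      ≤ w i * Real.exp (a i) := by
  refine (B2.sum_mem_le (t := t) (S := fun s => s = i) hs hw i univ _ fun 𝒳 h𝒳 =>
    ⟨subset_univ _, (mem_filter.1 h𝒳).2.1,
      B2.rooted_of_famConn (mem_filter.1 h𝒳).2.2 (mem_filter.1 h𝒳).2.1 rfl⟩).trans ?_
  refine mul_le_mul_of_nonneg_left ((B2.G_le (t := t) hs hw h _ _ _ fun k hk => ?_).trans
    (Real.exp_le_exp.2 (h i))) (hw i)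
  exact mem_filter.2 ⟨mem_univ _, hk.resolve_left fun h => h.2 h.1⟩

end Vale.Agent.P144Z
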