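import Vale.Agent.P144Z.B2.Conn
import Vale.Agent.P144Z.B3.Main

/-!
# The Mayer expansion
-/

namespace Vale.Agent.P144Z

open Finset

namespace B2

open KP

theorem Z_clique {K A : Type*} [DecidableEq K] [CommRing A] {R : K → K → Prop}
    (hR : ∀ u v, R u v → R v u) (w : K → A) (S : Finset K) :
    ∀ L : Finset K, S ⊆ L → (∀ u ∈ S, ∀ v ∈ S, R u v) →
      Z R w L = Z R w (L \ S) + ∑ v ∈ S, w v * Z R w (Nb R v L) := by
  induction S using Finset.induction_on with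
  | empty => intro L _ _; simp
  | insert a S ha ih =>
    intro L hL hS
    have h1 : S ⊆ L.erase a := fun u hu =>
      mem_erase.2 ⟨fun h => ha (h ▸ hu), hL (mem_insert_of_mem hu)⟩
    rw [Z_erase hR w (hL (mem_insert_self a S)), ih _ h1 fun u hu v hv =>
      hS u (mem_insert_of_mem hu) v (mem_insert_of_mem hv), sum_insert ha, sdiff_insert,
      erase_sdiff_comm]
    have h2 : ∑ v ∈ S, w v * Z R w (Nb R v (L.erase a)) = ∑ v ∈ S, w v * Z R w (Nb R v L) := by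
      refine sum_congr rfl fun v hv => ?_
      congr 2
      ext u
      rw [mem_Nb, mem_Nb, mem_erase]
      refine ⟨fun h => ⟨h.1.2, h.2⟩, fun h => ⟨⟨fun h3 => h.2.2 ?_, h.1⟩, h.2⟩⟩
      rw [h3]
      exact hS a (mem_insert_self _ _) v (mem_insert_of_mem hv)
    rw [h2]
    ring

variable {P : Type} [DecidableEq P]
variable {𝒜 𝒜' : Type} [NormedCommRing 𝒜] [NormedAlgebra ℝ 𝒜] [NormedCommRing 𝒜']
  [NormedAlgebra ℝ 𝒜']

omit [DecidableEq P] in
theorem exp_sub_one [FiniteDimensional ℝ 𝒜] (L : LocSys P 𝒜) {X : Finset P} {F : 𝒜}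
    (hF : F ∈ L.sub X) (h1 : L.p X F ≤ 1) :
    NormedSpace.exp F - 1 ∈ L.sub X ∧ L.p X (NormedSpace.exp F - 1) ≤ 2 * L.p X F := by
  let n : AlgNorm 𝒜 :=
    { R := L.sub X
      N := L.p X
      add_le := fun F _ G _ => L.p_add X F G
      smul_eq := fun c F _ => L.p_smul X c F
      mul_le := fun F _ G _ => L.p_mul X F G
      eq_zero := fun _ hF h => L.p_def hF h }
  have h2 : n.val (NormedSpace.exp (n.elt F hF) - 1) = NormedSpace.exp F - 1 := by
    rw [map_sub, map_one, n.map_exp, AlgNorm.val_elt]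
  have h3 := norm_exp_sub_one_le (n.elt F hF)
  rw [AlgNorm.norm_def, AlgNorm.norm_def, h2, AlgNorm.val_elt] at h3
  have h4 := Real.abs_exp_sub_one_le (x := L.p X F) (by rwa [abs_of_nonneg (L.p_nonneg X F)])
  rw [abs_of_nonneg (L.p_nonneg X F)] at h4
  exact ⟨h2 ▸ n.val_mem _, h3.trans ((le_abs_self _).trans h4)⟩

omit [DecidableEq P] in
theorem prod_mem_sub (L : LocSys P 𝒜) {f : Finset P → 𝒜} (hf : ∀ X, f X ∈ L.sub X)
    {C : Finset (Finset P)} {Y : Finset P} (h : ∀ X ∈ C, X ⊆ Y) : ∏ X ∈ C, f X ∈ L.sub Y :=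
  prod_mem fun X hX => L.mono (h X hX) (hf X)

theorem p_prod_le (L : LocSys P 𝒜) {f : Finset P → 𝒜} (hf : ∀ X, f X ∈ L.sub X)
    {Y : Finset P} (C : Finset (Finset P)) :
    (∀ X ∈ C, X ⊆ Y) → L.p Y (∏ X ∈ C, f X) ≤ ∏ X ∈ C, L.p X (f X) := by
  induction C using Finset.induction_on with
  | empty => intro _; simpa using L.p_one Y
  | insert X C hX ih =>
    intro h
    rw [prod_insert hX, prod_insert hX]
    exact (L.p_mul Y _ _).trans (mul_le_mul (L.p_mono (h X (mem_insert_self _ _)) (hf X))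
      (ih fun X' hX' => h X' (mem_insert_of_mem hX')) (L.p_nonneg _ _) (L.p_nonneg _ _))

open Classical in
/-- The connected families with a given union. -/
noncomputable def Cn [Fintype P] (Z : Size P) (Y : Finset P) : Finset (Finset (Finset P)) :=
  univ.filter fun C => C.Nonempty ∧ FamConn Z.touch C ∧ C.biUnion id = Y

theorem mem_Cn [Fintype P] {Z : Size P} {Y : Finset P} {C : Finset (Finset P)} :
    C ∈ Cn Z Y ↔ C.Nonempty ∧ FamConn Z.touch C ∧ C.biUnion id = Y := by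
  classical
  rw [Cn, mem_filter, and_iff_right (mem_univ _)]

theorem sub_of_Cn [Fintype P] {Z : Size P} {Y : Finset P} {C : Finset (Finset P)}
    (h : C ∈ Cn Z Y) : ∀ X ∈ C, X ⊆ Y := fun X hX => by
  rw [← (mem_Cn.1 h).2.2]
  exact subset_biUnion_of_mem id hX

open Classical in
/-- The points of `Λ` that are not neighbours of `Y`. -/
noncomputable def far (Z : Size P) (Y Λ : Finset P) : Finset P :=
  Λ.filter fun y => ∀ x ∈ Y, ¬ Z.adj x y

theorem sub_far {Z : Size P} {Y Λ W : Finset P} : W ⊆ far Z Y Λ ↔ W ⊆ Λ ∧ ¬ Z.touch Y W := by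
  classical
  constructor
  · intro h
    refine ⟨h.trans (filter_subset _ _), ?_⟩
    rintro ⟨x, hx, y, hy, hxy⟩
    exact (mem_filter.1 (h hy)).2 x hx hxy
  · rintro ⟨h1, h2⟩ y hy
    exact mem_filter.2 ⟨h1 hy, fun x hx hxy => h2 ⟨x, hx, y, hy, hxy⟩⟩

theorem far_ssubset {Z : Size P} {Y Λ : Finset P} {x : P} (hx : x ∈ Y) (hxΛ : x ∈ Λ) :
    far Z Y Λ ⊂ Λ :=
  (ssubset_iff_of_subset (sub_far.1 Subset.rfl).1).2 ⟨x, hxΛ, fun h =>
    (sub_far.1 Subset.rfl).2 ⟨x, hx, x, h, Z.refl x⟩⟩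

open Classical in
/-- The recursion for the sum over all families. -/
theorem sum_rec [Fintype P] {M : Type*} [CommSemiring M] (Z : Size P) (f : Finset P → M)
    {Λ : Finset P} (x : P) :
    ∑ 𝒳 ∈ Λ.powerset.powerset, ∏ X ∈ 𝒳, f X =
      ∑ 𝒳 ∈ (Λ.erase x).powerset.powerset, ∏ X ∈ 𝒳, f X +
      ∑ Y ∈ Λ.powerset.filter (fun Y => x ∈ Y), (∑ C ∈ Cn Z Y, ∏ X ∈ C, f X) *
        ∑ 𝒳 ∈ (far Z Y Λ).powerset.powerset, ∏ X ∈ 𝒳, f X := by
  have hsy : ∀ {X Y}, Z.touch X Y → Z.touch Y X := fun h => B3.touch_symm Z h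
  rw [sum_split (t := Z.touch) hsy (fun X => x ∈ X), ← add_sum_erase _ _
    (mem_filter.2 ⟨empty_mem_powerset _, rooted_empty⟩)]
  congr 1
  · rw [prod_empty, one_mul]
    refine sum_congr (congrArg powerset ?_) fun _ _ => rfl
    ext W
    simp only [mem_filter, mem_powerset, subset_erase, notMem_empty, false_imp_iff, implies_true,
      and_true]
  · have hx : ∀ C ∈ (Λ.powerset.powerset.filter
        (Rooted Z.touch fun X => x ∈ X)).erase ∅, x ∈ C.biUnion id := by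
      intro C hC
      obtain ⟨k, hk⟩ := nonempty_iff_ne_empty.2 (mem_erase.1 hC).1
      obtain ⟨s, hs1, hs2, -⟩ := (mem_filter.1 (mem_erase.1 hC).2).2 k hk
      exact mem_biUnion.2 ⟨s, hs1, hs2⟩
    rw [← sum_fiberwise_of_maps_to (t := Λ.powerset.filter fun Y => x ∈ Y)
      (g := fun C : Finset (Finset P) => C.biUnion id) fun C hC => mem_filter.2
        ⟨mem_powerset.2 (biUnion_subset.2 fun X hX => mem_powerset.1
          (mem_powerset.1 (mem_filter.1 (mem_erase.1 hC).2).1 hX)), hx C hC⟩]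
    refine sum_congr rfl fun Y hY => ?_
    obtain ⟨hY1, hY2⟩ := mem_filter.1 hY
    rw [sum_mul]
    refine sum_congr ?_ fun C hC => ?_
    · ext C
      rw [mem_Cn, mem_filter, mem_erase, mem_filter, mem_powerset, nonempty_iff_ne_empty]
      constructor
      · rintro ⟨⟨h1, -, h3⟩, h4⟩
        exact ⟨h1, Rooted.famConn (t := Z.touch) hsy (fun U W hU hW => ⟨x, hU, x, hW, Z.refl x⟩) h3, h4⟩
      · rintro ⟨h1, h2, h3⟩
        rw [← h3] at hY1 hY2
        obtain ⟨s, hs1, hs2⟩ := mem_biUnion.1 hY2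
        exact ⟨⟨h1, fun X hX => mem_powerset.2 ((subset_biUnion_of_mem id hX).trans
          (mem_powerset.1 hY1)), rooted_of_famConn h2 hs1 hs2⟩, h3⟩
    · congr 1
      refine sum_congr (congrArg powerset ?_) fun _ _ => rfl
      ext W
      simp only [mem_filter, mem_powerset]
      rw [sub_far, ← (mem_Cn.1 hC).2.2, B3.touch_biUnion]
      refine and_congr_right fun _ => ⟨fun h => ?_, fun h => ⟨fun h1 => h ?_, fun U hU h1 =>
        h ⟨U, hU, h1⟩⟩⟩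
      · rintro ⟨U, hU, h1⟩
        exact h.2 U hU h1
      · rw [← (mem_Cn.1 hC).2.2] at hY2
        obtain ⟨s, hs1, hs2⟩ := mem_biUnion.1 hY2
        exact ⟨s, hs1, x, hs2, x, h1, Z.refl x⟩

/-- The recursion for the partition function. -/
theorem Z_rec {M : Type*} [CommRing M] (Z : Size P) (φ : Finset P → M) (Λ : Finset P) (x : P) :
    KP.Z Z.touch φ Λ.powerset = KP.Z Z.touch φ (Λ.erase x).powerset +
      ∑ Y ∈ Λ.powerset.filter (fun Y => x ∈ Y), φ Y * KP.Z Z.touch φ (far Z Y Λ).powerset := by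
  rw [Z_clique (fun _ _ h => B3.touch_symm Z h) φ (Λ.powerset.filter fun Y => x ∈ Y) _
    (filter_subset _ _) fun U hU W hW =>
      ⟨x, (mem_filter.1 hU).2, x, (mem_filter.1 hW).2, Z.refl x⟩]
  congr 1
  · congr 1
    ext W
    simp only [mem_sdiff, mem_filter, mem_powerset, subset_erase]
    tauto
  · refine sum_congr rfl fun Y hY => ?_
    congr 2
    ext W
    rw [mem_Nb, mem_powerset, mem_powerset, sub_far]
    refine and_congr_right fun _ => ⟨fun h h1 => h.2 (B3.touch_symm Z h1), fun h =>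
      ⟨fun h1 => h ?_, fun h1 => h (B3.touch_symm Z h1)⟩⟩
    rw [h1]
    exact ⟨x, (mem_filter.1 hY).2, x, (mem_filter.1 hY).2, Z.refl x⟩

theorem mayer_eq [Fintype P] {Z : Size P} {L : LocSys P 𝒜} {L' : LocSys P 𝒜'} {κ : ℝ}
    {E : 𝒜 →ₗ[ℝ] 𝒜'} (hE : IsExp Z L L' κ E) {f : Finset P → 𝒜} (h0 : f ∅ = 0)
    (hf : ∀ X, f X ∈ L.sub X) (Λ : Finset P) :
    E (∑ 𝒳 ∈ Λ.powerset.powerset, ∏ X ∈ 𝒳, f X) =
      KP.Z Z.touch (fun Y => E (∑ C ∈ Cn Z Y, ∏ X ∈ C, f X)) Λ.powerset := by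
  induction Λ using Finset.strongInduction with
  | H Λ ih =>
    rcases Λ.eq_empty_or_nonempty with rfl | ⟨x, hx⟩
    · have h1 : ∑ C ∈ Cn Z ∅, ∏ X ∈ C, f X = 0 := sum_eq_zero fun C hC => by
        obtain ⟨X, hX⟩ := (mem_Cn.1 hC).1
        exact prod_eq_zero hX (by rw [subset_empty.1 (sub_of_Cn hC X hX), h0])
      rw [powerset_empty, KP.Z_erase (fun _ _ h => B3.touch_symm Z h) _ (mem_singleton_self _),
        h1, map_zero, zero_mul, add_zero, erase_singleton, KP.Z_empty, ← prod_one_add,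
        prod_singleton, h0, add_zero, hE.one]
    · rw [sum_rec Z f x, Z_rec Z _ Λ x, map_add, ih _ (erase_ssubset hx), map_sum]
      congr 1
      refine sum_congr rfl fun Y hY => ?_
      rw [hE.mul (X := Y) (Y := far Z Y Λ) (sum_mem fun C hC => prod_mem_sub L hf (sub_of_Cn hC))
        (sum_mem fun C hC => prod_mem_sub L hf fun X hX => mem_powerset.1 (mem_powerset.1 hC hX))
        (sub_far.1 Subset.rfl).2, ih _ (far_ssubset (mem_filter.1 hY).2 hx)]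

open Classical in
theorem mayer_le [Fintype P] {Z : Size P} {L : LocSys P 𝒜} {L' : LocSys P 𝒜'} {κ τ ε : ℝ}
    (hκ : 0 ≤ κ) (hτ : 0 ≤ τ) {E : 𝒜 →ₗ[ℝ] 𝒜'} (hE : IsExp Z L L' κ E) {f : Finset P → 𝒜}
    (hf : ∀ X, f X ∈ L.sub X) (hε : ε ≤ 1)
    (hle : Z.Le (τ + κ + 2) (fun X => L.p X (f X)) ε) :
    Z.Le (τ + 1) (fun Y => L'.p Y (E (∑ C ∈ Cn Z Y, ∏ X ∈ C, f X))) ε := by
  have hsz : ∀ Y, 0 ≤ Z.sz Y := fun Y => zero_le_one.trans (Z.one_le Y)
  set w : Finset P → ℝ := fun X => L.p X (f X) * Real.exp ((τ + κ + 1) * Z.sz X) with hw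
  have hw0 : ∀ X, 0 ≤ w X := fun X => mul_nonneg (L.p_nonneg _ _) (Real.exp_pos _).le
  have h1 : ∀ Y, ∑ X ∈ univ.filter (fun X => Z.touch X Y), w X * Real.exp (Z.sz X)
      ≤ ε * Z.sz Y := fun Y => by
    refine le_trans (le_of_eq (sum_congr rfl fun X _ => ?_)) (hle Y)
    simp only [hw]
    rw [mul_assoc, ← Real.exp_add]
    congr 2
    ring
  have h2 := conn_sum Z.touch (fun h => B3.touch_symm Z h) w Z.sz hw0 fun Y =>
    (h1 Y).trans (mul_le_of_le_one_left (hsz Y) hε)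
  have h3 : ∀ Y, L'.p Y (E (∑ C ∈ Cn Z Y, ∏ X ∈ C, f X)) * Real.exp ((τ + 1) * Z.sz Y)
      ≤ ∑ C ∈ Cn Z Y, ∏ X ∈ C, w X := fun Y => by
    rw [map_sum]
    refine (mul_le_mul_of_nonneg_right (B3.p_sum_le L' Y _ _) (Real.exp_pos _).le).trans ?_
    rw [sum_mul]
    refine sum_le_sum fun C hC => ?_
    have h4 := (hE.le (prod_mem_sub L hf (sub_of_Cn hC))).trans (mul_le_mul_of_nonneg_left
      (p_prod_le L hf C (sub_of_Cn hC)) (Real.exp_pos _).le)
    have h5 := B3.sz_biUnion_le Z (mem_Cn.1 hC).1 (cut_of_famConn (mem_Cn.1 hC).2.1)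
    rw [(mem_Cn.1 hC).2.2] at h5
    refine (mul_le_mul_of_nonneg_right h4 (Real.exp_pos _).le).trans ?_
    simp only [hw]
    rw [prod_mul_distrib, ← Real.exp_sum, ← mul_sum, mul_right_comm, ← Real.exp_add, mul_comm]
    refine mul_le_mul_of_nonneg_left (Real.exp_le_exp.2 ?_)
      (prod_nonneg fun X _ => L.p_nonneg _ _)
    have h6 := mul_le_mul_of_nonneg_left h5 (by linarith only [hκ, hτ] : 0 ≤ τ + κ + 1)
    linarith only [h6]
  intro Y₀
  refine le_trans (sum_le_sum fun Y _ => h3 Y) (le_trans ?_ ((sum_le_sum fun X _ => h2 X).trans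
    (h1 Y₀)))
  have hp : ∀ C : Finset (Finset P), 0 ≤ ∏ X ∈ C, w X := fun C => prod_nonneg fun X _ => hw0 X
  rw [sum_comm' (t' := univ) (s' := fun C => univ.filter fun Y => Z.touch Y Y₀ ∧ C ∈ Cn Z Y)
    (by simp), sum_comm' (s := univ.filter fun X => Z.touch X Y₀) (t' := univ)
    (s' := fun C => univ.filter fun X => Z.touch X Y₀ ∧ X ∈ C ∧ FamConn Z.touch C) (by simp)]
  refine sum_le_sum fun C _ => ?_
  rw [sum_const, sum_const, nsmul_eq_mul, nsmul_eq_mul]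
  refine mul_le_mul_of_nonneg_right (Nat.cast_le.2 ?_) (hp C)
  rcases (univ.filter fun Y => Z.touch Y Y₀ ∧ C ∈ Cn Z Y).eq_empty_or_nonempty with h | ⟨Y, hY⟩
  · rw [h, card_empty]
    exact Nat.zero_le _
  · obtain ⟨h4, h5⟩ := (mem_filter.1 hY).2
    rw [← (mem_Cn.1 h5).2.2] at h4
    obtain ⟨X, hX, h6⟩ := (B3.touch_biUnion Z).1 h4
    refine le_trans (card_le_one.2 fun U hU W hW => ?_) (card_pos.2
      ⟨X, mem_filter.2 ⟨mem_univ _, h6, hX, (mem_Cn.1 h5).2.1⟩⟩)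
    rw [← (mem_Cn.1 (mem_filter.1 hU).2.2).2.2, ← (mem_Cn.1 (mem_filter.1 hW).2.2).2.2]

end B2

variable {P : Type} [Fintype P] [DecidableEq P]
variable {𝒜 𝒜' : Type} [NormedCommRing 𝒜] [NormedAlgebra ℝ 𝒜] [FiniteDimensional ℝ 𝒜]
  [NormedCommRing 𝒜'] [NormedAlgebra ℝ 𝒜'] [FiniteDimensional ℝ 𝒜']

omit [FiniteDimensional ℝ 𝒜'] in
open Classical in
/-- B2: the Mayer expansion. -/
theorem mayer (Z : Size P) (L : LocSys P 𝒜) (L' : LocSys P 𝒜') {κ τ ε : ℝ} (hκ : 0 ≤ κ)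
    (hτ : 0 ≤ τ) {E : 𝒜 →ₗ[ℝ] 𝒜'} (hE : IsExp Z L L' κ E) {H : Finset P → 𝒜} (h0 : H ∅ = 0)
    (hH : ∀ X, H X ∈ L.sub X) (hε : ε ≤ 1 / 16)
    (hle : Z.Le (τ + κ + 2) (fun X => L.p X (H X)) ε) :
    ∃ φ : Finset P → 𝒜', φ ∅ = 0 ∧ (∀ Y, φ Y ∈ L'.sub Y) ∧
      Z.Le (τ + 1) (fun Y => L'.p Y (φ Y)) (2 * ε) ∧
      ∀ Λ : Finset P, E (NormedSpace.exp (∑ X ∈ Λ.powerset, H X)) =
        ∑ 𝒴 ∈ Λ.powerset.powerset.filter
          (fun 𝒴 => ∀ Y ∈ 𝒴, ∀ Y' ∈ 𝒴, Y ≠ Y' → ¬ Z.touch Y Y'), ∏ Y ∈ 𝒴, φ Y := by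
  have : CompleteSpace 𝒜 := FiniteDimensional.complete ℝ 𝒜
  have hp1 : ∀ X, L.p X (H X) ≤ 1 := fun X => by
    rcases X.eq_empty_or_nonempty with rfl | ⟨x, hx⟩
    · rw [h0, B3.p_zero]
      exact zero_le_one
    · have h1 := (single_le_sum (f := fun X => L.p X (H X) * Real.exp ((τ + κ + 2) * Z.sz X))
        (fun X _ => mul_nonneg (L.p_nonneg _ _) (Real.exp_pos _).le)
        (mem_filter.2 ⟨mem_univ X, (⟨x, hx, x, hx, Z.refl x⟩ : Z.touch X X)⟩)).trans (hle X)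
      have h2 := Z.one_le X
      have h3 : Z.sz X ≤ Real.exp ((τ + κ + 2) * Z.sz X) := by
        have h4 := Real.add_one_le_exp ((τ + κ + 2) * Z.sz X)
        have h5 : 0 ≤ (τ + κ + 1) * Z.sz X := by positivity
        linarith only [h4, h5]
      have h4 := mul_le_mul_of_nonneg_left h3 (L.p_nonneg X (H X))
      have h5 := mul_le_mul_of_nonneg_right hε (zero_le_one.trans h2)
      have h6 : L.p X (H X) * Z.sz X ≤ 1 * Z.sz X := by linarith only [h1, h2, h4, h5]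
      exact le_of_mul_le_mul_right h6 (zero_lt_one.trans_le h2)
  set f : Finset P → 𝒜 := fun X => NormedSpace.exp (H X) - 1 with hfd
  have hf0 : f ∅ = 0 := by simp only [hfd, h0, NormedSpace.exp_zero, sub_self]
  have hf : ∀ X, f X ∈ L.sub X := fun X => (B2.exp_sub_one L (hH X) (hp1 X)).1
  have hle' : Z.Le (τ + κ + 2) (fun X => L.p X (f X)) (2 * ε) := fun Y => by
    rw [mul_assoc]
    refine le_trans ?_ (mul_le_mul_of_nonneg_left (hle Y) zero_le_two)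
    rw [mul_sum]
    refine sum_le_sum fun X _ => ?_
    rw [← mul_assoc]
    exact mul_le_mul_of_nonneg_right (B2.exp_sub_one L (hH X) (hp1 X)).2 (Real.exp_pos _).le
  refine ⟨fun Y => E (∑ C ∈ B2.Cn Z Y, ∏ X ∈ C, f X), ?_, fun Y => hE.mem (sum_mem fun C hC =>
    B2.prod_mem_sub L hf (B2.sub_of_Cn hC)), B2.mayer_le hκ hτ hE hf (by linarith only [hε]) hle',
    fun Λ => ?_⟩
  · have h1 : ∑ C ∈ B2.Cn Z ∅, ∏ X ∈ C, f X = 0 := sum_eq_zero fun C hC => by
      obtain ⟨X, hX⟩ := (B2.mem_Cn.1 hC).1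
      exact prod_eq_zero hX (by rw [subset_empty.1 (B2.sub_of_Cn hC X hX), hf0])
    simp only [h1, map_zero]
  · have h1 : NormedSpace.exp (∑ X ∈ Λ.powerset, H X) =
        ∑ 𝒳 ∈ Λ.powerset.powerset, ∏ X ∈ 𝒳, f X := by
      rw [KP.exp_sum', ← prod_one_add]
      exact prod_congr rfl fun X _ => by simp only [hfd, add_sub_cancel]
    rw [h1, B2.mayer_eq hE hf0 hf, KP.Z]
    refine sum_congr ?_ fun _ _ => rfl
    ext I
    rw [KP.mem_Cpt, mem_filter, mem_powerset]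

end Vale.Agent.P144Z
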